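import Vale.Agent.P280.H63X.Fin

/-! P280, helper151: the theorem on balanced weights, the extremal ones excepted. -/

open DirectSum Vale.Agent.P280.T Vale.Agent.P280.H127

namespace Vale.Agent.P280.H151

open Vale.Agent.P280.N Vale.Agent.P280.N2.F Vale.Agent.P280.H63X

/-- Multiplicity one of the weights which are maximal for a one-parameter group with isolated
fixed points, for a maximal torus. -/
def TopMult : Prop := ∀ {r : ℕ} {R : Type} [CommRing R] [IsDomain R] [Algebra ℂ R]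
  (𝒜 : ℕ × (Fin r → ℤ) → Submodule ℂ R) [GradedAlgebra 𝒜], IsTorusManifold 𝒜 →
  NefOnRationalCurves 𝒜 →
  (∀ x ν, ¬ IsVertex 𝒜 x → IsFixed 𝒜 x ν → ¬ TangentWeight 𝒜 x ν 0) →
  (∀ D : Derivation ℂ R R, (∀ d m, ∀ h ∈ 𝒜 (d, m), D h ∈ 𝒜 (d, m)) →
    ∃ (α : ℂ) (β : (Fin r → ℤ) →+ ℂ), ∀ d m, ∀ h ∈ 𝒜 (d, m), ∃ n : ℕ,
      (fun x : R => D x - ((d : ℂ) * α + β m) • x)^[n] h = 0) →
  ∀ l : (Fin r → ℤ) →+ ℤ, (∀ μ, Wt 𝒜 μ → l μ ≠ 0) → ∀ χ : Fin r → ℤ, 0 < l χ →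
  (∀ μ, Wt 𝒜 μ → l μ ≤ l χ) → ∀ y : FP 𝒜, y.Pi χ →
  ∀ v v' : R →ₗ[ℂ] ℂ, IsTangent y.q v → HasWeight 𝒜 y.ν χ v → IsTangent y.q v' →
    HasWeight 𝒜 y.ν χ v' → ∃ c c' : ℂ, (c ≠ 0 ∨ c' ≠ 0) ∧ ∀ h, c * v h + c' * v' h = 0

variable {r : ℕ} {R : Type} [CommRing R] [Algebra ℂ R]
  {𝒜 : ℕ × (Fin r → ℤ) → Submodule ℂ R} [GradedAlgebra 𝒜]

/-- The theorem: each weight `χ` which occurs at some fixed point together with `-χ` is maximal for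
some one-parameter group with isolated fixed points, or it has multiplicity one and does not occur
with its double. -/
theorem final_of (hT : TopMult) (hX : IsTorusManifold 𝒜) (hN : NefOnRationalCurves 𝒜)
    (hbal : ∀ y ξ χ, ¬ IsVertex 𝒜 y → IsFixed 𝒜 y ξ → TangentWeight 𝒜 y ξ χ →
      TangentWeight 𝒜 y ξ (-χ) →
      (∃ l : (Fin r → ℤ) →+ ℤ, 0 < l χ ∧ ∀ x ν μ, ¬ IsVertex 𝒜 x → IsFixed 𝒜 x ν →
        TangentWeight 𝒜 x ν μ → l μ ≠ 0 ∧ l μ ≤ l χ) ∨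
      ∀ x ν, ¬ IsVertex 𝒜 x → IsFixed 𝒜 x ν → TangentWeight 𝒜 x ν χ →
        ¬ TangentWeight 𝒜 x ν (2 • χ) ∧
        ∀ v v' : R →ₗ[ℂ] ℂ, IsTangent x v → HasWeight 𝒜 ν χ v → IsTangent x v' →
          HasWeight 𝒜 ν χ v' → ∃ c c' : ℂ, (c ≠ 0 ∨ c' ≠ 0) ∧ ∀ h, c * v h + c' * v' h = 0) :
    (∀ χ : Fin r → ℤ, Liftable 𝒜 χ) ∧ IsHomogeneousManifold 𝒜 ∧ IsTransitive 𝒜 := by
  obtain ⟨r', 𝒜', hg, π, hr, ht⟩ := exists_maxTor hX
  have hdom := hX.domain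
  have hiso : ∀ x ν, ¬ IsVertex 𝒜 x → IsFixed 𝒜 x ν → ¬ TangentWeight 𝒜 x ν 0 := by
    intro x ν hx0 hx h
    rcases hbal x ν 0 hx0 hx h (by rw [neg_zero]; exact h) with ⟨l, hl, -⟩ | h1
    · rw [map_zero] at hl
      exact lt_irrefl _ hl
    · exact (h1 x ν hx0 hx h).1 (by rw [smul_zero]; exact h)
  have hX' := ref_torusManifold hr hX
  have hN' := ref_nef hr hN
  have hv : ∀ z : FP 𝒜', ¬ IsVertex 𝒜 z.q := fun z h => z.nv ((ref_vertex hr).2 h)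
  have hiso' : ∀ x ν, ¬ IsVertex 𝒜' x → IsFixed 𝒜' x ν → ¬ TangentWeight 𝒜' x ν 0 := by
    intro x ν hx0 hx h
    have h1 := ref_weight hr h
    rw [map_zero] at h1
    exact hiso x (π ν) (fun h => hx0 ((ref_vertex hr).2 h)) (ref_fixed hr hx) h1
  have H : N.Hyp 𝒜' := toN hX' hN' (fun y z χ h1 h2 h3 => by
    have k1 := ref_weight hr h1
    have k2 := ref_weight hr h2
    have k3 := ref_weight hr h3
    rw [map_neg] at k2
    rcases hbal z.q (π z.ν) (π χ) (hv z) (ref_fixed hr z.fix) k1 k2 with ⟨l, hl, hm⟩ | hb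
    · have hle : ∀ μ, Wt 𝒜' μ → l (π μ) ≠ 0 ∧ l (π μ) ≤ l (π χ) := by
        rintro μ ⟨w, hw⟩
        exact hm w.q (π w.ν) (π μ) (hv w) (ref_fixed hr w.fix) (ref_weight hr hw)
      refine ⟨fun h4 => ?_, ?_⟩
      · have h5 := (hle _ ⟨y, h4⟩).2
        rw [map_nsmul, map_nsmul, nsmul_eq_mul] at h5
        push_cast at h5
        linarith
      · exact hT 𝒜' hX' hN' hiso' ht (l.comp π) (fun μ hμ => (hle μ hμ).1) χ hl
          (fun μ hμ => (hle μ hμ).2) y h3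
    · obtain ⟨k4, k5⟩ := hb y.q (π y.ν) (hv y) (ref_fixed hr y.fix) k3
      refine ⟨fun h4 => k4 ?_, fun v v' hv hw hv' hw' => k5 v v' hv (ref_hasWeight hr hw) hv'
        (ref_hasWeight hr hw')⟩
      have k6 := ref_weight hr h4
      rwa [map_nsmul] at k6) ht
  have hI' : ∀ lam : Fin r' → ℤ, Wt 𝒜' lam →
      (∀ l : (Fin r' → ℤ) →+ ℤ, 0 < l lam → ∃ ω, Wt 𝒜' ω ∧ l lam < l ω) → Liftable 𝒜' lam :=
    fun lam _ hint => liftable_of_real fun z hz => Vale.Agent.P280.N2.real_interior H hint z hz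
  refine ⟨fun χ => ?_, ref_back hr (homogeneous_of_int H hI')⟩
  by_cases hχ0 : χ = 0
  · subst hχ0
    intro x ν hx0 hx hχ
    exact absurd hχ (hiso x ν hx0 hx)
  · exact H267.ref_liftable hr hX H.hX hiso hχ0 fun χ' _ => liftable_of_int H hI' χ'

end Vale.Agent.P280.H151
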