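import Vale.Agent.P280.H224.WTor
import Vale.Agent.P280.H127.Wts

/-! P280, Lemma M, helper151: the derivations of weight zero act on the fields of a weight with one
eigenvalue. -/

open DirectSum Vale.Agent.P280.T Vale.Agent.P280.H93

namespace Vale.Agent.P280.H151

open Vale.Agent.P280.H224 Vale.Agent.P280.H127

variable {M : Type} [AddCommGroup M] [DecidableEq M] {R : Type} [CommRing R] [Algebra ℂ R]
variable {𝒜 : ℕ × M → Submodule ℂ R} [GradedAlgebra 𝒜]

/-- `ad D + β a`. -/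
noncomputable def adb (D : Derivation ℂ R R) (c : ℂ) :
    Derivation ℂ R R →ₗ[ℂ] Derivation ℂ R R where
  toFun F := ⁅D, F⁆ + c • F
  map_add' F G := by
    rw [lie_add, smul_add]
    abel
  map_smul' k F := by
    rw [lie_smul, smul_comm, RingHom.id_apply, smul_add]

theorem adb_field {D F : Derivation ℂ R R} {a : M} {c : ℂ}
    (hD : ∀ (d : ℕ) (m : M), ∀ h ∈ 𝒜 (d, m), D h ∈ 𝒜 (d, m)) (hF : IsHField 𝒜 a F) :
    IsHField 𝒜 a (adb D c F) := by
  intro d m h hh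
  change ⁅D, F⁆ h + c • F h ∈ _
  rw [Derivation.commutator_apply]
  exact Submodule.add_mem _ (Submodule.sub_mem _ (hD _ _ _ (hF d m h hh)) (hF _ _ _ (hD d m h hh)))
    (Submodule.smul_mem _ _ (hF d m h hh))

theorem adb_apply {D F : Derivation ℂ R R} {a : M} {α : ℂ} {β : M →+ ℂ}
    (hF : IsHField 𝒜 a F) (h : R) :
    adb D (β a) F h = ((D : R →ₗ[ℂ] R) - hsOp 𝒜 α β) (F h) -
      F (((D : R →ₗ[ℂ] R) - hsOp 𝒜 α β) h) := by
  have key : ((adb D (β a) F : Derivation ℂ R R) : R →ₗ[ℂ] R) =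
      ((D : R →ₗ[ℂ] R) - hsOp 𝒜 α β).comp (F : R →ₗ[ℂ] R) -
        (F : R →ₗ[ℂ] R).comp ((D : R →ₗ[ℂ] R) - hsOp 𝒜 α β) := by
    apply linearMap_ext_graded 𝒜
    rintro ⟨d, m⟩ h hh
    change ⁅D, F⁆ h + β a • F h = (D (F h) - hsOp 𝒜 α β (F h)) - F (D h - hsOp 𝒜 α β h)
    rw [hsOp_mem hh, hsOp_mem (hF d m h hh), Derivation.commutator_apply, map_sub, F.map_sub,
      F.map_smul]
    module
  exact LinearMap.congr_fun key h

theorem nil_all {Z : R →ₗ[ℂ] R}
    (hnil : ∀ (d : ℕ) (m : M), ∀ h ∈ 𝒜 (d, m), ∃ n : ℕ, (Z ^ n) h = 0) (x : R) :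
    ∃ K : ℕ, ∀ n, K ≤ n → (Z ^ n) x = 0 := by
  have key : ∀ n k : ℕ, n ≤ k → ∀ x, (Z ^ n) x = 0 → (Z ^ k) x = 0 := by
    intro n k hnk x hx
    obtain ⟨j, rfl⟩ := Nat.exists_eq_add_of_le hnk
    rw [add_comm, pow_add, Module.End.mul_apply, hx, map_zero]
  refine hom_ind' 𝒜 (P := fun x => ∃ K : ℕ, ∀ n, K ≤ n → (Z ^ n) x = 0) ⟨0, fun n _ => map_zero _⟩
    ?_ ?_ x
  · rintro a b ⟨K, hK⟩ ⟨L, hL⟩
    refine ⟨max K L, fun n hn => ?_⟩
    rw [map_add, hK n (le_trans (le_max_left _ _) hn), hL n (le_trans (le_max_right _ _) hn),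
      add_zero]
  · rintro ⟨d, m⟩ x hx
    obtain ⟨n, hn⟩ := hnil d m x hx
    exact ⟨n, fun k hk => key n k hk x hn⟩

/-- `ad D + β a` is nilpotent on the fields of weight `a`. -/
theorem ad_nil (hft : Algebra.FiniteType ℂ R) {D E : Derivation ℂ R R} {a : M}
    (hD : ∀ (d : ℕ) (m : M), ∀ h ∈ 𝒜 (d, m), D h ∈ 𝒜 (d, m)) (hE : IsHField 𝒜 a E) {α : ℂ}
    {β : M →+ ℂ} (hT : ∀ (d : ℕ) (m : M), ∀ h ∈ 𝒜 (d, m), ∃ n : ℕ,
      (fun x : R => D x - ((d : ℂ) * α + β m) • x)^[n] h = 0) :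
    ∃ n : ℕ, ((adb D (β a)) ^ n) E = 0 := by
  classical
  set Z : R →ₗ[ℂ] R := (D : R →ₗ[ℂ] R) - hsOp 𝒜 α β with hZ
  have hZv : ∀ h, Z h = D h - hsOp 𝒜 α β h := fun h => rfl
  have hZm : ∀ (d : ℕ) (m : M), ∀ h ∈ 𝒜 (d, m), Z h ∈ 𝒜 (d, m) := by
    intro d m h hh
    rw [hZv, hsOp_mem hh]
    exact Submodule.sub_mem _ (hD d m h hh) (Submodule.smul_mem _ _ hh)
  have hZpm : ∀ (d : ℕ) (m : M), ∀ h ∈ 𝒜 (d, m), ∀ n : ℕ, (Z ^ n) h ∈ 𝒜 (d, m) := by
    intro d m h hh n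
    induction n with
    | zero => exact hh
    | succ n ih =>
      rw [pow_succ', Module.End.mul_apply]
      exact hZm _ _ _ ih
  have hnil : ∀ (d : ℕ) (m : M), ∀ h ∈ 𝒜 (d, m), ∃ n : ℕ, (Z ^ n) h = 0 := by
    intro d m h hh
    obtain ⟨n, hn⟩ := hT d m h hh
    refine ⟨n, ?_⟩
    have h1 : ∀ n : ℕ, (fun x : R => D x - ((d : ℂ) * α + β m) • x)^[n] h = (Z ^ n) h := by
      intro n
      induction n with
      | zero => rfl
      | succ n ih =>
        rw [Function.iterate_succ_apply', ih, pow_succ', Module.End.mul_apply, hZv,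
          hsOp_mem (hZpm d m h hh n)]
    rw [← h1, hn]
  have hall := nil_all (𝒜 := 𝒜) hnil
  -- the iterates
  have hfield : ∀ n : ℕ, IsHField 𝒜 a (((adb D (β a)) ^ n) E) := by
    intro n
    induction n with
    | zero => exact hE
    | succ n ih =>
      rw [pow_succ', Module.End.mul_apply]
      exact adb_field hD ih
  set W : ℕ → R → Submodule ℂ R := fun n h =>
    Submodule.span ℂ {x | ∃ i j : ℕ, i + j = n ∧ x = (Z ^ i) (E ((Z ^ j) h))} with hW
  have hmem : ∀ (n : ℕ) (h : R), (((adb D (β a)) ^ n) E) h ∈ W n h := by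
    intro n
    induction n with
    | zero =>
      intro h
      exact Submodule.subset_span ⟨0, 0, rfl, rfl⟩
    | succ n ih =>
      intro h
      rw [pow_succ', Module.End.mul_apply, adb_apply (α := α) (hfield n)]
      refine Submodule.sub_mem _ ?_ ?_
      · have h1 : (W n h).map Z ≤ W (n + 1) h := by
          rw [hW, Submodule.map_span, Submodule.span_le]
          rintro _ ⟨x, ⟨i, j, hij, rfl⟩, rfl⟩
          refine Submodule.subset_span ⟨i + 1, j, by omega, ?_⟩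
          rw [pow_succ', Module.End.mul_apply]
        exact h1 ⟨_, ih h, rfl⟩
      · have h1 : W n (Z h) ≤ W (n + 1) h := by
          rw [hW, Submodule.span_le]
          rintro _ ⟨i, j, hij, rfl⟩
          refine Submodule.subset_span ⟨i, j + 1, by omega, ?_⟩
          rw [pow_succ (n := j), Module.End.mul_apply]
        exact h1 (ih (Z h))
  have hker : ∀ x : R, ∃ N : ℕ, ∀ n, N ≤ n → (((adb D (β a)) ^ n) E) x = 0 := by
    intro x
    obtain ⟨K, hK⟩ := hall x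
    have h1 : ∀ j : ℕ, ∃ L : ℕ, ∀ n, L ≤ n → (Z ^ n) (E ((Z ^ j) x)) = 0 := fun j => hall _
    choose L hL using h1
    refine ⟨K + (Finset.range K).sup L, fun n hn => ?_⟩
    have h2 : W n x = ⊥ := by
      rw [hW, Submodule.span_eq_bot]
      rintro _ ⟨i, j, hij, rfl⟩
      by_cases hj : K ≤ j
      · rw [hK j hj, map_zero, map_zero]
      · push Not at hj
        refine hL j i ?_
        have h3 : L j ≤ (Finset.range K).sup L := Finset.le_sup (Finset.mem_range.2 hj)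
        omega
    have h3 := hmem n x
    rw [h2] at h3
    exact (Submodule.mem_bot ℂ).1 h3
  obtain ⟨s, hs⟩ := hft.out
  choose N hN using hker
  refine ⟨s.sup N, ?_⟩
  refine Derivation.ext_of_adjoin_eq_top (s : Set R) hs fun x hx => ?_
  rw [hN x _ (Finset.le_sup hx)]
  rfl

end Vale.Agent.P280.H151
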