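import Vale.Agent.P280.H224.Brk
import Vale.Agent.P280.H127.EdgeA

/-! P280, Lemma M, helper151: the orbit step. A field `E` of weight `a` which does not vanish at
`y` does not commute with all the brackets with the fields of weight `-a`. -/

open DirectSum Vale.Agent.P280.T Vale.Agent.P280.H93 Vale.Agent.P280.H127

set_option linter.unusedSectionVars false

namespace Vale.Agent.P280.H151

open Vale.Agent.P280.H224

variable {M : Type} [AddCommGroup M] [DecidableEq M] {R : Type} [CommRing R] [Algebra ℂ R]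
variable {𝒜 : ℕ × M → Submodule ℂ R} [GradedAlgebra 𝒜]

theorem orbit (hX : IsTorusManifold 𝒜) {y : R →ₐ[ℂ] ℂ} (hy0 : ¬ IsVertex 𝒜 y)
    {ν a : M} (hy : IsFixed 𝒜 y ν) (hiso : ¬ TangentWeight 𝒜 y ν 0)
    (hna : ¬ TangentWeight 𝒜 y ν (-a)) {E : Derivation ℂ R R} (hE : IsHField 𝒜 a E)
    {l : M →+ ℤ} (hl : 0 < l a) (hlift : Liftable 𝒜 (-a)) (hE0 : ∃ h, y (E h) ≠ 0) :
    ∃ F : Derivation ℂ R R, IsHField 𝒜 (-a) F ∧ ⁅E, ⁅E, F⁆⁆ ≠ 0 := by
  classical
  let b : M →+ ℂ := (AddMonoidHom.mulLeft (2 / (l a : ℂ))).comp ((Int.castAddHom ℂ).comp l)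
  have hb' : ∀ m, b m = 2 / (l a : ℂ) * (l m : ℂ) := fun m => rfl
  have hla : (l a : ℂ) ≠ 0 := by exact_mod_cast hl.ne'
  have hb : b a = 2 := by
    rw [hb']
    field_simp
  obtain ⟨z, hz, hz0⟩ := exists_gen hy hE hb
  have hzy : ∀ (d : ℕ), ∀ h ∈ 𝒜 (d, d • ν), z h = y h := by
    intro d h hh
    rw [hz d _ h hh 0 (by simp), cl_zero]
  -- the largest exponent in degree one
  obtain ⟨K, ⟨m1, f1, hf1, hf1ne⟩, hKmax⟩ : ∃ K : ℕ,
      (∃ m, ∃ h ∈ 𝒜 (1, m), cl y E K h ≠ 0) ∧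
      ∀ k m, ∀ h ∈ 𝒜 (1, m), cl y E k h ≠ 0 → k ≤ K := by
    obtain ⟨B, hB⟩ := re_bdd hX b
    have hbd : ∀ k m, ∀ h ∈ 𝒜 (1, m), cl y E k h ≠ 0 → k ≤ ⌊(B - (b ν).re) / 2⌋₊ := by
      intro k m h hh hne
      apply Nat.le_floor
      have h1 := cl_weight hy hE hh hne
      have h2 := hB 1 m h hh (fun h3 => hne (by rw [h3, map_zero]))
      rw [h1, one_smul, map_add, map_nsmul, hb, nsmul_eq_mul, Complex.add_re, Complex.mul_re,
        Complex.natCast_re, Complex.natCast_im, zero_mul, sub_zero, Nat.cast_one, one_mul] at h2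
      have h3 : ((2 : ℂ)).re = 2 := by simp
      rw [h3] at h2
      linarith
    obtain ⟨f, hf, hfne⟩ := exists_deg_one_ne hX.gen hy0 hy
    let P : ℕ → Prop := fun k => ∃ m, ∃ h ∈ 𝒜 (1, m), cl y E k h ≠ 0
    have hP0 : P 0 := ⟨ν, f, hf, by rwa [cl_zero]⟩
    refine ⟨Nat.findGreatest P ⌊(B - (b ν).re) / 2⌋₊, Nat.findGreatest_spec (P := P) (Nat.zero_le _) hP0,
      fun k m h hh hne => Nat.le_findGreatest (hbd k m h hh hne) ⟨m, h, hh, hne⟩⟩
  have hm1 : m1 = 1 • ν + K • a := cl_weight hy hE hf1 hf1ne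
  have hzf1 : z f1 ≠ 0 := by rwa [hz 1 m1 f1 hf1 K hm1]
  have hK1 : 1 ≤ K := by
    obtain ⟨x, hx⟩ := hE0
    by_contra hcon
    apply hx
    have h1 := tangent_eq_zero hX (isTangent_value y E) (fun m h hh => by
      change y (E h) = 0
      by_contra hne
      have h2 := hKmax 1 m h hh (by
        have h3 := cl_succ y E 0 h
        rw [cl_zero] at h3
        intro h4
        rw [zero_add] at h3
        rw [h4, mul_zero] at h3
        exact hne h3)
      omega)
    exact LinearMap.congr_fun h1 x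
  have hsupp : ∀ (d : ℕ) (m : M), ∀ h ∈ 𝒜 (d, m), z h ≠ 0 →
      ∃ k : ℕ, k ≤ d * K ∧ m = d • ν + k • a := by
    intro d m h hh hne
    obtain ⟨k, hk⟩ := hz0 d m h hh hne
    refine ⟨k, ?_, hk⟩
    have h1 := slope_le hX.gen (-l) (-(l ν + K * l a)) (RingHom.ker z) (fun m h hh hI => by
      have hI' : z h ≠ 0 := fun h0 => hI ((RingHom.mem_ker).2 h0)
      obtain ⟨k, hk⟩ := hz0 1 m h hh hI'
      have h2 := hKmax k m h hh (by rwa [← hz 1 m h hh k hk])
      rw [AddMonoidHom.neg_apply, hk, one_smul, map_add, map_nsmul, nsmul_eq_mul]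
      have h3 : (k : ℤ) * l a ≤ K * l a := mul_le_mul_of_nonneg_right (by exact_mod_cast h2) hl.le
      omega) d m h hh (fun h0 => hne ((RingHom.mem_ker).1 h0))
    rw [AddMonoidHom.neg_apply, hk, map_add, map_nsmul, map_nsmul, nsmul_eq_mul, nsmul_eq_mul,
      nsmul_eq_mul] at h1
    have h2 : (k : ℤ) * l a ≤ (d * K) * l a := by linarith
    have h3 := le_of_mul_le_mul_right h2 hl
    exact_mod_cast h3
  set μ : M := ν + K • a with hμ
  -- the limit point
  let w : ℕ × M →+ ℤ :=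
    { toFun := fun i => i.1 * l μ - l i.2
      map_zero' := by simp
      map_add' := by
        intro i j
        simp only [Prod.fst_add, Prod.snd_add, map_add]
        push_cast
        ring }
  have hw : ∀ d m, w (d, m) = d * l μ - l m := fun d m => rfl
  have hwk : ∀ (d : ℕ) (m : M) (k : ℕ), m = d • ν + k • a → w (d, m) = (d * K - k) * l a := by
    intro d m k hk
    rw [hw, hk, hμ, map_add, map_add, map_nsmul, map_nsmul, map_nsmul, nsmul_eq_mul, nsmul_eq_mul,
      nsmul_eq_mul]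
    ring
  obtain ⟨p, hp1, hp2⟩ := exists_limit 𝒜 z w (by
    rintro ⟨d, m⟩ h hh hne
    obtain ⟨k, hk, hk'⟩ := hsupp d m h hh hne
    rw [hwk d m k hk']
    refine mul_nonneg ?_ hl.le
    have : (k : ℤ) ≤ d * K := by exact_mod_cast hk
    omega)
  have hpk : ∀ (d : ℕ) (m : M) (k : ℕ), m = d • ν + k • a → ∀ h ∈ 𝒜 (d, m),
      p h = if k = d * K then z h else 0 := by
    intro d m k hk h hh
    by_cases h1 : k = d * K
    · rw [if_pos h1]
      apply hp1 (d, m) h hh
      rw [hwk d m k hk, h1]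
      push_cast
      ring
    · rw [if_neg h1]
      apply hp2 (d, m) h hh
      rw [hwk d m k hk]
      refine mul_ne_zero ?_ hl.ne'
      intro h0
      apply h1
      have : (k : ℤ) = d * K := by omega
      exact_mod_cast this
  have hpz : ∀ (d : ℕ) (m : M), ∀ h ∈ 𝒜 (d, m), z h = 0 → p h = 0 := by
    intro d m h hh h0
    by_cases h1 : w (d, m) = 0
    · rw [hp1 _ h hh h1, h0]
    · exact hp2 _ h hh h1
  have hpfix : IsFixed 𝒜 p μ := by
    intro d m h hh hne
    have h1 : z h ≠ 0 := fun h0 => hne (hpz d m h hh h0)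
    obtain ⟨k, -, hk⟩ := hsupp d m h hh h1
    rw [hpk d m k hk h hh] at hne
    have h2 : k = d * K := by
      by_contra h2
      rw [if_neg h2] at hne
      exact hne rfl
    rw [hk, h2, hμ, smul_add, smul_smul]
  have hpf1 : p f1 ≠ 0 := by
    rw [hpk 1 m1 K hm1 f1 hf1, one_mul, if_pos rfl]
    exact hzf1
  have hpv : ¬ IsVertex 𝒜 p := fun hv => hpf1 (hv 1 m1 one_pos f1 hf1)
  -- the tangent vector
  set u : R →ₗ[ℂ] ℂ := H644.tw 𝒜 fun i => if i.2 + a = i.1 • μ then z.toLinearMap else 0 with hu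
  have huk : ∀ (d : ℕ) (m : M) (k : ℕ), m = d • ν + k • a → ∀ h ∈ 𝒜 (d, m),
      u h = if k + 1 = d * K then z h else 0 := by
    intro d m k hk h hh
    have hiff : m + a = d • μ ↔ k + 1 = d * K := by
      rw [hk, hμ, smul_add, smul_smul, add_assoc, ← succ_nsmul]
      constructor
      · intro h1
        exact nsmul_inj hb (add_left_cancel h1)
      · intro h1
        rw [h1]
    rw [hu, H644.tw_mem 𝒜 _ hh]
    by_cases h1 : k + 1 = d * K
    · rw [if_pos h1, if_pos (hiff.2 h1)]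
      rfl
    · rw [if_neg h1, if_neg (fun h2 => h1 (hiff.1 h2))]
      rfl
  have huz : ∀ (d : ℕ) (m : M), ∀ h ∈ 𝒜 (d, m), z h = 0 → u h = 0 := by
    intro d m h hh h0
    rw [hu, H644.tw_mem 𝒜 _ hh]
    split_ifs
    · exact h0
    · rfl
  have hutan : IsTangent p u := by
    have hder : H644.IsDer p u := by
      refine H644.isDer_of_hom (𝒜 := 𝒜) ?_
      rintro ⟨d, m⟩ ⟨d', m'⟩ x hx g hg
      have hxg : x * g ∈ 𝒜 (d + d', m + m') := SetLike.mul_mem_graded hx hg
      by_cases hx0 : z x = 0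
      · rw [huz _ _ _ hxg (by rw [map_mul, hx0, zero_mul]), hpz d m x hx hx0, huz d m x hx hx0]
        ring
      by_cases hg0 : z g = 0
      · rw [huz _ _ _ hxg (by rw [map_mul, hg0, mul_zero]), hpz d' m' g hg hg0,
          huz d' m' g hg hg0]
        ring
      obtain ⟨k, hk, hk'⟩ := hsupp d m x hx hx0
      obtain ⟨k', hk1, hk1'⟩ := hsupp d' m' g hg hg0
      have h1 : m + m' = (d + d') • ν + (k + k') • a := by
        rw [hk', hk1', add_smul, add_smul]
        abel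
      rw [huk _ _ _ h1 _ hxg, huk _ _ _ hk' _ hx, huk _ _ _ hk1' _ hg, hpk _ _ _ hk' _ hx,
        hpk _ _ _ hk1' _ hg, map_mul, add_mul]
      by_cases c1 : k = d * K
      · by_cases c2 : k' + 1 = d' * K
        · rw [if_pos (by omega), if_pos c1, if_pos c2, if_neg (by omega)]
          ring
        · rw [if_neg (by omega), if_neg c2, if_neg (by omega : ¬ (k + 1 = d * K))]
          ring
      · by_cases c2 : k' = d' * K
        · by_cases c3 : k + 1 = d * K
          · rw [if_pos (by omega), if_neg c1, if_pos c2, if_pos c3]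
            ring
          · rw [if_neg (by omega), if_neg c1, if_neg c3]
            ring
        · rw [if_neg (by omega), if_neg c1, if_neg c2]
          ring
    exact hder
  have huw : HasWeight 𝒜 μ (-a) u := by
    intro d m h hh hne
    rw [hu, H644.tw_mem 𝒜 _ hh] at hne
    have h1 : m + a = d • μ := by
      by_contra h1
      rw [if_neg h1] at hne
      exact hne rfl
    rw [← h1]
    abel
  have hune : u (E f1) ≠ 0 := by
    obtain ⟨k, rfl⟩ := Nat.exists_eq_succ_of_ne_zero (by omega : K ≠ 0)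
    have hm2 : m1 - a = 1 • ν + k • a := by
      rw [hm1, Nat.succ_eq_add_one, succ_nsmul a k]
      abel
    rw [huk 1 _ k hm2 _ (hE 1 m1 f1 hf1), if_pos (by omega), hz 1 _ _ (hE 1 m1 f1 hf1) k hm2,
      cl_succ]
    exact mul_ne_zero (Nat.cast_add_one_ne_zero k) hf1ne
  have ha0 : -a ≠ 0 := by
    intro h
    rw [neg_eq_zero] at h
    rw [h, map_zero] at hl
    exact lt_irrefl _ hl
  obtain ⟨F, hF, hFu⟩ := hlift p μ hpv hpfix (H587.tangentWeight_of_ne hpfix ha0 hutan huw 1 _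
    (hE 1 m1 f1 hf1) hune) u hutan huw
  refine ⟨F, hF, fun hcomm => ?_⟩
  have hEK : ∀ h, E (⁅E, F⁆ h) = ⁅E, F⁆ (E h) := by
    intro h
    have h1 : ⁅E, ⁅E, F⁆⁆ h = 0 := by
      rw [hcomm]
      rfl
    rw [Derivation.commutator_apply] at h1
    exact sub_eq_zero.1 h1
  have hG : ∀ (d : ℕ) (m : M), ∀ h ∈ 𝒜 (d, m), ⁅E, F⁆ h ∈ 𝒜 (d, m) := by
    intro d m h hh
    rw [Derivation.commutator_apply]
    have h1 := hE _ _ _ (hF d m h hh)
    have h2 := hF _ _ _ (hE d m h hh)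
    rw [sub_neg_eq_add, add_sub_cancel_right] at h1
    rw [sub_neg_eq_add, sub_add_cancel] at h2
    exact Submodule.sub_mem _ h1 h2
  have hFy : ∀ h, y (F h) = 0 := field_vanish hy ha0 hF hna
  obtain ⟨c, hc⟩ : ∃ c : ℂ, ∀ (d : ℕ) (m : M), ∀ h ∈ 𝒜 (d, m),
      y (⁅E, F⁆ h) = c * d * y h := by
    by_contra hcon
    push Not at hcon
    have hf0 : IsHField 𝒜 0 ⁅E, F⁆ := fun d m h hh => by
      rw [sub_zero]
      exact hG d m h hh
    exact hiso ⟨_, isTangent_value y ⁅E, F⁆, hasWeight_value hy hf0, hcon⟩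
  have hiterG : ∀ (k : ℕ) (h : R), (⇑E)^[k] (⁅E, F⁆ h) = ⁅E, F⁆ ((⇑E)^[k] h) := by
    intro k
    induction k with
    | zero => intro h; rfl
    | succ k ih =>
      intro h
      rw [Function.iterate_succ_apply, hEK, ih, Function.iterate_succ_apply]
  have hiterF : ∀ (k : ℕ) (h : R), (⇑E)^[k + 1] (F h) =
      F ((⇑E)^[k + 1] h) + ((k : ℂ) + 1) • ⁅E, F⁆ ((⇑E)^[k] h) := by
    intro k
    induction k with
    | zero =>
      intro h
      have h1 : ⁅E, F⁆ h = E (F h) - F (E h) := Derivation.commutator_apply _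
      change E (F h) = F (E h) + ((0 : ℕ) + 1 : ℂ) • ⁅E, F⁆ h
      rw [h1, Nat.cast_zero, zero_add, one_smul]
      abel
    | succ k ih =>
      intro h
      have h1 : ⁅E, F⁆ ((⇑E)^[k + 1] h) = E (F ((⇑E)^[k + 1] h)) - F (E ((⇑E)^[k + 1] h)) :=
        Derivation.commutator_apply _
      rw [Function.iterate_succ_apply', ih, map_add, E.map_smul, hEK,
        ← Function.iterate_succ_apply' E k, Function.iterate_succ_apply' E (k + 1) h]
      have h2 : E (F ((⇑E)^[k + 1] h)) = F (E ((⇑E)^[k + 1] h)) + ⁅E, F⁆ ((⇑E)^[k + 1] h) := by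
        rw [h1]
        abel
      rw [h2]
      push_cast
      module
  have hcl : ∀ (d : ℕ) (m : M), ∀ h ∈ 𝒜 (d, m), ∀ k : ℕ,
      cl y E (k + 1) (F h) = c * d * cl y E k h := by
    intro d m h hh k
    have h1 := hc d _ _ (iter_mem hE hh k)
    rw [cl_apply, cl_apply, hiterF, map_add, hFy, zero_add, map_smul, smul_eq_mul, h1,
      Nat.factorial_succ, Nat.cast_mul, Nat.cast_succ]
    have h2 : ((k : ℂ) + 1) ≠ 0 := Nat.cast_add_one_ne_zero k
    have h3 : (k.factorial : ℂ) ≠ 0 := by exact_mod_cast k.factorial_ne_zero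
    field_simp
  -- the relation at the limit
  have hrel : ∀ (d : ℕ) (k : ℕ), k + 1 = d * K → ∀ h ∈ 𝒜 (d, d • ν + k • a), u h ≠ 0 →
      c * d = 1 := by
    intro d k hk h hh hne
    have h1 := hFu h
    have h2 : F h ∈ 𝒜 (d, d • ν + (k + 1) • a) := by
      have h3 := hF _ _ _ hh
      rw [sub_neg_eq_add, add_assoc, ← succ_nsmul] at h3
      exact h3
    rw [hpk d _ (k + 1) rfl _ h2, if_pos hk, hz d _ _ h2 (k + 1) rfl, hcl d _ h hh k] at h1
    have h4 : u h = cl y E k h := by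
      rw [huk d _ k rfl h hh, if_pos hk, hz d _ _ hh k rfl]
    rw [← h4] at h1
    have h5 : (c * d - 1) * u h = 0 := by
      rw [sub_mul, one_mul, h1, sub_self]
    rcases mul_eq_zero.1 h5 with h6 | h6
    · exact sub_eq_zero.1 h6
    · exact absurd h6 hne
  obtain ⟨k, hkK⟩ : ∃ k, k + 1 = K := ⟨K - 1, by omega⟩
  have hEf : E f1 ∈ 𝒜 (1, 1 • ν + k • a) := by
    have h1 := hE 1 m1 f1 hf1
    rw [hm1, ← hkK, succ_nsmul a k, ← add_assoc, add_sub_cancel_right] at h1
    exact h1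
  have hff : f1 ∈ 𝒜 (1, 1 • ν + K • a) := hm1 ▸ hf1
  have e1 := hrel 1 k (by omega) _ hEf hune
  have hprod : f1 * E f1 ∈ 𝒜 (2, 2 • ν + (K + k) • a) := by
    have h1 := SetLike.mul_mem_graded hff hEf
    have h2 : ((1, 1 • ν + K • a) : ℕ × M) + (1, 1 • ν + k • a) =
        (2, 2 • ν + (K + k) • a) := by
      ext
      · rfl
      · change 1 • ν + K • a + (1 • ν + k • a) = 2 • ν + (K + k) • a
        rw [add_smul, two_smul, one_smul]
        abel
    rwa [h2] at h1
  have hpE : p (E f1) = 0 := by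
    rw [hpk 1 _ k rfl _ hEf, if_neg (by omega)]
  have hu2 : u (f1 * E f1) ≠ 0 := by
    rw [hutan f1 (E f1), hpE, zero_mul, add_zero]
    exact mul_ne_zero hpf1 hune
  have e2 := hrel 2 (K + k) (by omega) _ hprod hu2
  rw [Nat.cast_one, mul_one] at e1
  rw [e1, one_mul] at e2
  norm_num at e2

end Vale.Agent.P280.H151
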